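import Crest.Agent.R330.NB.D
import Crest.Agent.R330.NB.F
import Crest.Agent.R330.IBM

/-! # Row 330, NB/G (statements frozen; see `R330/Blueprint.lean`, `R330/NB/Defs.lean`) -/

set_option autoImplicit false
set_option linter.unusedSectionVars false

noncomputable section

open MeasureTheory Filter Topology Metric
open scoped InnerProductSpace ContDiff Matrix
open Crest.MathPhysics.MatrixQM (GammaNine)

namespace Crest.Agent.R330

variable {E Z L H F : Type}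
  [NormedAddCommGroup E] [InnerProductSpace ℝ E] [FiniteDimensional ℝ E]
  [NormedAddCommGroup Z] [InnerProductSpace ℝ Z] [FiniteDimensional ℝ Z]
  [NormedAddCommGroup L] [InnerProductSpace ℝ L] [FiniteDimensional ℝ L]
  [NormedAddCommGroup H] [InnerProductSpace ℝ H] [FiniteDimensional ℝ H]
  [NormedAddCommGroup F] [InnerProductSpace ℂ F] [FiniteDimensional ℂ F]
  [MeasurableSpace E] [BorelSpace E] [MeasurableSpace Z] [BorelSpace Z]
  [MeasurableSpace L] [BorelSpace L] [MeasurableSpace H] [BorelSpace H]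
  {K : Type} [Group K] [TopologicalSpace K] [IsTopologicalGroup K]
  [CompactSpace K] [MeasurableSpace K] [BorelSpace K]
  {P : Type} [Fintype P] {𝔤 : Lie E} (D : Levi 𝔤 Z L H P) {Γ : Grp 𝔤 K} {C : Cl (Th E) F} {σ : Spn}

namespace Levi

theorem nbGa_ev {t : ℝ} (ht : 0 < t) : ∀ᶠ s in 𝓝[>] (0 : ℝ), 0 < s ∧ s ≤ t := by
  filter_upwards [Ioc_mem_nhdsGT ht] with s hs using hs

theorem nbGa_norm {S' S : Set (X E)} {a b η R : ℝ} (hη : 0 < η) (hR : η ≤ (max R 1)⁻¹) {x : X E}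
    (hx : x ∈ regB 𝔤 σ S' S a b η) : max R 1 ≤ ‖x‖ := by
  have hρ : η⁻¹ < ‖x‖ := hx.1.1.2
  have : max R 1 ≤ η⁻¹ := by
    rw [le_inv_comm₀ (by positivity) hη]
    exact hR
  linarith

theorem nbGa_meas (a c β lm ε : ℝ) :
    Measurable fun x : X E => D.WL a c β lm ε (D.zc x) (D.lc x) := by
  have hz : Continuous D.zc := LinearMap.continuous_of_finiteDimensional _
  have hl : Continuous D.lc := LinearMap.continuous_of_finiteDimensional _
  unfold WL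
  refine ((measurable_const.div (hz.norm.pow 2).measurable).add measurable_const).add
    (measurable_const.mul (Measurable.add ?_ ?_))
  · exact Finset.measurable_sum _ fun p _ =>
      measurable_const.div ((((D.continuous_M p).comp hz).pow 2).measurable)
  · exact Measurable.ite (measurableSet_le (continuous_const.mul hz.norm).measurable
      hl.norm.measurable) (measurable_const.div (hl.norm.pow 2).measurable) measurable_const

theorem nbGa_bound {a c β lm ε κ θ : ℝ} (ha : 0 ≤ a) (hcε : 0 ≤ c * ε) (hβ : 0 ≤ β) (hlm : 0 < lm)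
    (hκ : 0 < κ) (hθ : θ ≤ 1 / 2) {x : X E} (hx : x ∈ D.tube κ θ) (h1 : 1 ≤ ‖x‖) :
    |D.WL a c β lm ε (D.zc x) (D.lc x)| ≤
      a * 4 + c * ε + β * (Fintype.card P * κ ^ 2 + 4 / lm ^ 2) := by
  have hz : 1 / 2 ≤ ‖D.zc x‖ := by
    have := D.tube_norm_zc hx
    nlinarith
  have hM : ∀ p, 1 / D.M p (D.zc x) ^ 2 ≤ κ ^ 2 := fun p => by
    have h2 : 1 ≤ κ * D.M p (D.zc x) := h1.trans (hx.1 p)
    have h3 : 0 < D.M p (D.zc x) := by
      by_contra h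
      have := mul_nonpos_of_nonneg_of_nonpos hκ.le (not_lt.1 h)
      linarith
    rw [div_le_iff₀ (by positivity), ← mul_pow]
    exact one_le_pow₀ h2
  have e1 : a / ‖D.zc x‖ ^ 2 ≤ a * 4 := by
    rw [div_eq_mul_inv]
    refine mul_le_mul_of_nonneg_left ?_ ha
    rw [inv_le_comm₀ (by positivity) (by norm_num)]
    nlinarith
  have e2 : ∑ p, 1 / D.M p (D.zc x) ^ 2 ≤ Fintype.card P * κ ^ 2 := by
    calc _ ≤ ∑ _p : P, κ ^ 2 := Finset.sum_le_sum fun p _ => hM p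
      _ = _ := by simp
  have e3 : (if lm * ‖D.zc x‖ ≤ ‖D.lc x‖ then 1 / ‖D.lc x‖ ^ 2 else 0) ≤ 4 / lm ^ 2 := by
    split_ifs with hh
    · have h4 : lm / 2 ≤ ‖D.lc x‖ := by nlinarith
      rw [div_le_div_iff₀ (by nlinarith) (by positivity)]
      nlinarith
    · positivity
  have e4 : 0 ≤ (if lm * ‖D.zc x‖ ≤ ‖D.lc x‖ then 1 / ‖D.lc x‖ ^ 2 else 0) := by
    split_ifs <;> positivity
  unfold WL
  rw [abs_of_nonneg (by positivity)]
  gcongr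

theorem nbGa_cmp {S' S : Set (X E)} {c β β₀ ε a' κ θ : ℝ} (hε : 0 ≤ ε) (hβ : 0 ≤ β) (hβc : β ≤ c)
    (hβ₀ : β ≤ β₀ / 16) (ha' : 0 < a') (hκ : 0 < κ) (hθ : θ ≤ 1 / 2) {x : X E}
    (hx : x ∈ D.tube κ θ) (h1 : 1 ≤ ‖x‖) (hM : ∃ p, D.M p (D.zc x) ≤ 4 * infDist x S')
    (hl1 : ‖D.lc x‖ ≤ infDist x S + a' / 4 * ‖x‖) (hl2 : infDist x S ≤ ‖D.lc x‖ + a' / 4 * ‖x‖) :
    W2 S' S (23 / 20) β ε a' x ≤ D.WL (23 / 20) c β₀ (a' / 2) ε (D.zc x) (D.lc x) := by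
  have hz : 1 / 2 ≤ ‖D.zc x‖ := by
    have := D.tube_norm_zc hx
    nlinarith
  have hzx := D.norm_zc_le x
  obtain ⟨p, hp⟩ := hM
  have h3 : 0 < D.M p (D.zc x) := by
    have h2 : 1 ≤ κ * D.M p (D.zc x) := h1.trans (hx.1 p)
    by_contra h
    have := mul_nonpos_of_nonneg_of_nonpos hκ.le (not_lt.1 h)
    linarith
  have hβ₀0 : 0 ≤ β₀ := by linarith
  have e1 : (23 / 20 : ℝ) / ‖x‖ ^ 2 ≤ 23 / 20 / ‖D.zc x‖ ^ 2 := by gcongr
  have e2 : β * ε ≤ c * ε := by gcongr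
  have e3 : β / infDist x S' ^ 2 ≤ β₀ * ∑ p, 1 / D.M p (D.zc x) ^ 2 := by
    have hd : 0 < infDist x S' := by linarith
    calc β / infDist x S' ^ 2 ≤ β₀ / 16 / infDist x S' ^ 2 := by gcongr
      _ = β₀ * (1 / (4 * infDist x S') ^ 2) := by field_simp; ring
      _ ≤ β₀ * (1 / D.M p (D.zc x) ^ 2) := by gcongr
      _ ≤ _ := by
        gcongr
        exact Finset.single_le_sum (f := fun p => 1 / D.M p (D.zc x) ^ 2)
          (fun p _ => by positivity) (Finset.mem_univ p)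
  have e4 : (if a' * ‖x‖ ≤ infDist x S then β / infDist x S ^ 2 else 0) ≤
      β₀ * if a' / 2 * ‖D.zc x‖ ≤ ‖D.lc x‖ then 1 / ‖D.lc x‖ ^ 2 else 0 := by
    by_cases hh : a' * ‖x‖ ≤ infDist x S
    · have h5 : a' / 2 * ‖D.zc x‖ ≤ a' / 2 * ‖x‖ := by gcongr
      have h6 : 0 < a' * ‖x‖ := by positivity
      rw [if_pos hh, if_pos (by linarith)]
      have hd : 0 < infDist x S := by linarith
      have hl0 : 0 < ‖D.lc x‖ := by linarith
      calc β / infDist x S ^ 2 ≤ β₀ / 16 / infDist x S ^ 2 := by gcongr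
        _ = β₀ * (1 / (4 * infDist x S) ^ 2) := by field_simp; ring
        _ ≤ β₀ * (1 / ‖D.lc x‖ ^ 2) := by gcongr; linarith
    · rw [if_neg hh]
      split_ifs <;> positivity
  unfold W2 W1 WL
  rw [mul_add]
  linarith

/-- The Born–Oppenheimer chart.  `c, β₀, ε₁` from `bo_main`; `β ≤ min (c, β₀/16, ε₁)`; for `a`:
`κ, θ₁` from `geo`, `θ₀` from `bo_main κ (1/50)`, `2b ≤ min θ₀ θ₁`, `θ = 2b`; for `a'`: `lm = a'/2`,
`δ = a'/4`, `η ≤ min (η₀, 1, (max R 1)⁻¹)`.  On `regB ∩ {p ≠ 0}`: `W2 ≤ WL` (`‖z‖ ≤ ρ`, `z ≠ 0`,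
`M_p ≤ 4d'`, `‖l‖ ≥ d - δρ`, `‖l‖ ≤ 5d/4`) and `WL` is bounded (`‖z‖ ≥ ρ/2`, `M_p ≥ ρ/(2κ)`),
which gives integrability (`Tame.integrable` with `W = p · WL`), `integral_mono_of_nonneg`. -/
theorem chart_main {S' S : Set (X E)} (hG : D.Geo S' S) (h' : ICone Γ S') (h : ICone Γ S)
    (hT : TailIneq D.𝔩 (D.CL C) σ) (hGap : GapIneq D.𝔩 (D.CL C) σ) :
    Chart Γ C σ S' S (Set.range (liftI 9 D.iZ)) := by
  obtain ⟨c, β₀, ε₁, hc, hβ₀, hε₁, hbo⟩ := D.bo_main C σ Γ hT hGap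
  filter_upwards [nbGa_ev (t := min c (min (β₀ / 16) ε₁)) (by positivity)] with β ⟨hβ, hβle⟩ a ha
  have hβc : β ≤ c := hβle.trans (min_le_left _ _)
  have hββ : β ≤ β₀ / 16 := hβle.trans ((min_le_right _ _).trans (min_le_left _ _))
  have hβε : β ≤ ε₁ := hβle.trans ((min_le_right _ _).trans (min_le_right _ _))
  obtain ⟨κ, θ₁, hκ, hθ₁, hθ₁4, hgeo⟩ := D.geo hG h' h σ ha
  obtain ⟨θ₀, hθ₀, hbo⟩ := hbo κ (1 / 50) hκ (by norm_num)
  filter_upwards [nbGa_ev (t := min θ₀ θ₁ / 2) (by positivity)] with b ⟨hb, hble⟩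
  have hb0 : 2 * b ≤ θ₀ := by linarith [min_le_left θ₀ θ₁]
  have hb1 : 2 * b ≤ θ₁ := by linarith [min_le_right θ₀ θ₁]
  obtain ⟨p, hp, hbo⟩ := hbo (2 * b) (by positivity) hb0
  refine ⟨p, hp.1, hp.2.1, hp.2.2.1, fun a' ha' => ?_⟩
  obtain ⟨R, hbo⟩ := hbo (a' / 2) (by positivity)
  obtain ⟨η₀, hη₀, hgeo⟩ := hgeo b hb hb1 (a' / 4) (by positivity)
  filter_upwards [nbGa_ev (t := min η₀ (max R 1)⁻¹) (by positivity)] with η ⟨hη, hηle⟩
  obtain ⟨hgap, hnear, hcmp⟩ := hgeo η hη (hηle.trans (min_le_left _ _))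
  have hR : ∀ x ∈ regB 𝔤 σ S' S a b η, max R 1 ≤ ‖x‖ := fun x hx =>
    nbGa_norm hη (hηle.trans (min_le_right _ _)) hx
  have hR1 : ∀ x ∈ regB 𝔤 σ S' S a b η, 1 ≤ ‖x‖ := fun x hx => (le_max_right _ _).trans (hR x hx)
  obtain ⟨hgr, hineq⟩ := hbo _ (isOpen_regB S' S a b η) (fun k x hx => regB_ax h' h a b η k hx)
    (fun x hx => (le_max_left _ _).trans (hR x hx)) hgap
  refine ⟨hgr, ?_, fun ε 𝒱 hgood ψ hψ hs => ?_⟩
  · rintro x hx ⟨_, ⟨z, rfl⟩, hz⟩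
    obtain ⟨h1, h2⟩ := hnear x hx ⟨z, hz⟩
    exact FPW.pos D hp (by linarith) h1 (hR1 x hx) h2
  obtain ⟨hε0, hεβ, h𝒱, hk⟩ := hgood
  obtain ⟨k, hk⟩ : ∃ k : ℝ, ε = 0 ∨ (0 ≤ k ∧ (V0, k) ∈ 𝒱) := by
    rcases hk with hk | ⟨k, hk⟩
    · exact ⟨0, Or.inl hk⟩
    · exact ⟨k, Or.inr hk⟩
  refine le_trans ?_ (hineq ε k hε0 (hεβ.trans hβε) 𝒱 ψ h𝒱 hψ hk hs)
  have hθ2 : 2 * (2 * b) ≤ 1 / 2 := by linarith
  have htame : Tame (fun x => p x * D.WL (23 / 20) c β₀ (a' / 2) ε (D.zc x) (D.lc x))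
      (regB 𝔤 σ S' S a b η) := by
    refine ⟨hp.1.continuous.measurable.mul (D.nbGa_meas _ _ _ _ _), fun T hT hTc => ?_⟩
    obtain ⟨B, hB⟩ := hTc.exists_bound_of_continuousOn hp.1.continuous.continuousOn
    refine ⟨max B 0 * (23 / 20 * 4 + c * ε + β₀ * (Fintype.card P * (2 * κ) ^ 2 + 4 / (a' / 2) ^ 2)),
      fun x hx => ?_⟩
    dsimp only
    by_cases hp0 : p x = 0
    · rw [hp0, zero_mul, _root_.abs_zero]
      positivity
    · rw [abs_mul]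
      refine mul_le_mul ((hB x hx).trans (le_max_left _ _)) ?_ (abs_nonneg _) (le_max_right _ _)
      exact D.nbGa_bound (by norm_num) (by positivity) hβ₀.le (by positivity) (by positivity) hθ2
        (hp.2.2.2.1 x hp0).2 (hR1 x (hT hx))
  refine integral_mono_of_nonneg (Eventually.of_forall fun x => ?_)
    (by simpa only [mul_assoc] using htame.integrable hψ.1 hs) (Eventually.of_forall fun x => ?_)
  · have := hp.2.1 x
    have : 0 ≤ W2 S' S (23 / 20) β ε a' x := by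
      unfold W2 W1
      split_ifs <;> positivity
    positivity
  · by_cases hp0 : p x = 0
    · simp [hp0]
    by_cases hx : x ∈ tsupport ψ
    · have hx' := hs hx
      obtain ⟨hΦ, ht⟩ := hp.2.2.2.1 x hp0
      obtain ⟨e1, e2, e3⟩ := hcmp x hx' hΦ ht
      have := D.nbGa_cmp hε0 hβ.le hβc hββ ha' (by positivity) hθ2 ht (hR1 x hx') e1 e2 e3
      have := hp.2.1 x
      dsimp only
      gcongr
    · simp [image_eq_zero_of_notMem_tsupport hx]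

/-- Confinement with a single stratum.  `geo` with `S' = {0}`, `a = 1/2`; `bo_conf κ 1`;
`Ω = regB {0} S (1/2) b η ⊇ val η'` (`val_near`); `Grp.cover` with `ι = Unit`, `W = ‖·‖`,
`η = δ = 1`: `∫ρ|ψ|² ≤ 2B(‖Qψ‖² + ∫ρ⁻²|ψ|²)`, absorb with `ρ⁻² ≤ η³ρ`; this is
`LB 0 𝒱 (cρ) (val η')` with `c ≤ 1`; `step_zero` with `δ = c/2` and `ρ⁻² ≤ ρ`. -/
theorem conf_of_levi {S : Set (X E)} (hG : D.Geo {0} S) (h : ICone Γ S)
    (hv : ∀ x : X E, (∀ i j, 𝔤.br (x i) (x j) = 0) → x ∈ S)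
    (hcov : ∀ s ∈ S, ∃ k, Γ.ax k s ∈ Set.range (liftI 9 D.iZ)) {𝒱 : Wts} (h𝒱 : 𝒱.OK)
    (hK : D.Kill C σ.G 𝒱) :
    ∃ c R : ℝ, 0 < c ∧ ∀ ψ, Cls 𝔤 C σ.G 𝒱 ψ → (∀ x, ‖x‖ ≤ R → ψ x = 0) →
      c * ∫ x, ‖x‖ * ‖ψ x‖ ^ 2 ≤ ∫ x, ‖Qe 𝔤 C σ 0 ψ x‖ ^ 2 := by
  have h' := iCone_zero Γ
  obtain ⟨κ, θ₁, hκ, hθ₁, hθ₁4, hgeo⟩ := D.geo hG h' h σ (a := 1 / 2) (by norm_num)
  obtain ⟨θ₀, B, hθ₀, hB, hbo⟩ := D.bo_conf C σ Γ h𝒱 hK hκ (η := 1) one_pos
  set b : ℝ := min θ₀ θ₁ / 2 with hbdef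
  have hb : 0 < b := by positivity
  have hb0 : 2 * b ≤ θ₀ := by linarith [min_le_left θ₀ θ₁]
  have hb1 : 2 * b ≤ θ₁ := by linarith [min_le_right θ₀ θ₁]
  obtain ⟨p, hp, R, hbo⟩ := hbo (2 * b) (by positivity) hb0
  obtain ⟨η₀, hη₀, hgeo⟩ := hgeo b hb hb1 1 one_pos
  obtain ⟨η₁, hη₁, hnr⟩ := val_near (σ := σ) h hv hb
  set η : ℝ := min (min η₀ η₁) (max (max R (4 * B)) 1)⁻¹ with hηdef
  have hη : 0 < η := by positivity
  obtain ⟨hgap, hnear, -⟩ := hgeo η hη ((min_le_left _ _).trans (min_le_left _ _))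
  set Ω := regB 𝔤 σ ({0} : Set (X E)) S (1 / 2) b η with hΩ
  have hR : ∀ x ∈ Ω, max (max R (4 * B)) 1 ≤ ‖x‖ := fun x hx =>
    nbGa_norm hη (min_le_right _ _) hx
  have hR1 : ∀ x ∈ Ω, 1 ≤ ‖x‖ := fun x hx => (le_max_right _ _).trans (hR x hx)
  have hRB : ∀ x ∈ Ω, 4 * B ≤ ‖x‖ := fun x hx =>
    ((le_max_right _ _).trans (le_max_left _ _)).trans (hR x hx)
  have hΩo : IsOpen Ω := isOpen_regB _ _ _ _ _
  have hΩa : ∀ k, ∀ x ∈ Ω, Γ.ax k x ∈ Ω := fun k x hx => regB_ax h' h _ b η k hx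
  obtain ⟨hgr, hineq⟩ := hbo Ω hΩo hΩa
    (fun x hx => ((le_max_left _ _).trans (le_max_left _ _)).trans (hR x hx)) hgap
  have hvΩ : val 𝔤 σ η ⊆ Ω := fun x hx => by
    have h0 : 0 < ‖x‖ := (inv_pos.2 hη).trans hx.2
    refine ⟨⟨hx, ?_⟩, hnr x (val_mono hη ((min_le_left _ _).trans (min_le_right _ _)) hx)⟩
    rw [infDist_singleton, dist_zero_right]
    linarith
  have hΩ0 : (0 : X E) ∉ Ω := fun h0 => by
    have := hR1 0 h0
    rw [norm_zero] at this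
    linarith
  have tn : ∀ T : Set (X E), Tame (fun x : X E => ‖x‖) T := fun T =>
    Tame.of_continuousOn measurable_norm continuous_norm.continuousOn
  have ti : ∀ T : Set (X E), (∀ x ∈ T, 1 ≤ ‖x‖) → Tame (fun x : X E => 1 / ‖x‖ ^ 2) T :=
    fun T hT => Tame.of_continuousOn (measurable_const.div (measurable_norm.pow_const 2))
      (continuousOn_const.div (continuous_norm.pow 2).continuousOn fun x hx => by
        have := hT x hx
        positivity)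
  set c : ℝ := min 1 (1 / (4 * B)) with hcdef
  have hc : 0 < c := by positivity
  have hc1 : c ≤ 1 := min_le_left _ _
  have hcB : c * (4 * B) ≤ 1 := by
    have : c ≤ 1 / (4 * B) := min_le_right _ _
    rwa [le_div_iff₀ (by positivity)] at this
  have hLB : LB 𝔤 C σ 0 𝒱 (fun x => c * ‖x‖) (val 𝔤 σ η) := by
    intro ψ hψ hs
    have hs' := hs.trans hvΩ
    have key := Γ.cover C σ 0 h𝒱 (ι := Unit) (p := fun _ => p) (fun _ => hp.1)
      (fun _ => hp.2.1) (fun _ => hp.2.2.1) hΩo hΩ0 (fun x hx => ?_) (η := 1) zero_le_one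
      (fun _ => hgr) (W := fun x => ‖x‖) measurable_norm (fun x => norm_nonneg x)
      (fun T _ hT => ?_) (fun k x => (Γ.ax k).norm_map x) hB.le
      (fun φ hφ hφs _ => hineq φ hφ hφs) (δ := 1) one_pos hψ hs'
    · have hJ : 4 * B * ∫ x, 1 / ‖x‖ ^ 2 * ‖ψ x‖ ^ 2 ≤ ∫ x, ‖x‖ * ‖ψ x‖ ^ 2 := by
        rw [← integral_const_mul]
        refine integral_mono_of_nonneg (Eventually.of_forall fun x => by positivity)
          ((tn Ω).integrable hψ.1 hs') (Eventually.of_forall fun x => ?_)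
        by_cases hx : x ∈ tsupport ψ
        · have h1 := hR1 x (hs' hx)
          have h2 := hRB x (hs' hx)
          have h3 : 4 * B * (1 / ‖x‖ ^ 2) ≤ ‖x‖ := by
            rw [mul_one_div, div_le_iff₀ (by positivity)]
            nlinarith [one_le_pow₀ (n := 2) h1]
          dsimp only
          rw [← mul_assoc]
          gcongr
        · simp [image_eq_zero_of_notMem_tsupport hx]
      have hQ : 0 ≤ ∫ x, ‖Qe 𝔤 C σ 0 ψ x‖ ^ 2 := integral_nonneg fun x => by positivity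
      have hI : ∫ x, ‖x‖ * ‖ψ x‖ ^ 2 ≤ 4 * B * ∫ x, ‖Qe 𝔤 C σ 0 ψ x‖ ^ 2 := by
        norm_num at key hJ
        nlinarith
      simp only [mul_assoc]
      rw [integral_const_mul]
      calc _ ≤ c * (4 * B * ∫ x, ‖Qe 𝔤 C σ 0 ψ x‖ ^ 2) := by gcongr
        _ = c * (4 * B) * ∫ x, ‖Qe 𝔤 C σ 0 ψ x‖ ^ 2 := by ring
        _ ≤ _ := mul_le_of_le_one_left hQ hcB
    · obtain ⟨s, hs, hd⟩ := h.closed.exists_infDist_eq_dist h.nonempty x
      obtain ⟨k, z, hz⟩ := hcov s hs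
      refine ⟨(), k, ?_⟩
      have hx' := hΩa k x hx
      obtain ⟨h1, h2⟩ := hnear _ hx' ⟨z, by
        rw [hz, ← map_sub, (Γ.ax k).norm_map, h.infDist_ax, hd, dist_eq_norm]⟩
      exact FPW.pos D hp (by linarith) h1 (hR1 _ hx') h2
    · obtain ⟨r, hr⟩ := hT.exists_bound_of_continuousOn (f := fun x : X E => x)
        continuous_id.continuousOn
      exact ⟨r, hr⟩
  obtain ⟨R', hR', hz⟩ := step_zero (𝔤 := 𝔤) (C := C) (σ := σ) hη (δ := c / 2) (by positivity)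
  refine ⟨c / 4, R', by positivity, fun ψ hψ h0 => ?_⟩
  have key := hz 0 𝒱 ⟨le_rfl, zero_le_one, h𝒱, Or.inl rfl⟩ (fun x => c * ‖x‖)
    (measurable_const.mul measurable_norm)
    (fun x _ => ⟨by positivity, mul_le_of_le_one_left (norm_nonneg _) hc1⟩) hLB ψ hψ h0
  have hJ : ∫ x, 1 / ‖x‖ ^ 2 * ‖ψ x‖ ^ 2 ≤ ∫ x, ‖x‖ * ‖ψ x‖ ^ 2 := by
    refine integral_mono_of_nonneg (Eventually.of_forall fun x => by positivity)
      ((tn Set.univ).integrable hψ.1 (Set.subset_univ _)) (Eventually.of_forall fun x => ?_)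
    by_cases hx : ‖x‖ ≤ R'
    · simp [h0 x hx]
    · have h1 : 1 ≤ ‖x‖ := by linarith [not_le.1 hx]
      have h3 : 1 / ‖x‖ ^ 2 ≤ ‖x‖ := by
        rw [div_le_iff₀ (by positivity)]
        nlinarith [one_le_pow₀ (n := 2) h1]
      dsimp only
      gcongr
  have hQ : 0 ≤ ∫ x, ‖Qe 𝔤 C σ 0 ψ x‖ ^ 2 := integral_nonneg fun x => by positivity
  simp only [mul_assoc] at key
  rw [integral_const_mul] at key
  nlinarith [mul_le_mul_of_nonneg_left hJ hc.le, mul_le_mul_of_nonneg_right hc1 hQ]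

end Levi

end Crest.Agent.R330

end
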